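import Vale.Agent.P284.H894.MkCoc
import Vale.Agent.P300.H673.UC
import Vale.Agent.P223.R2.H968.Lift

/-! # P284 (helper678), block A2: the cocycle of the universal covering. -/

open scoped Manifold ContDiff Topology
open Filter Set Metric

noncomputable section

namespace Vale.Agent.P284.H678

open Vale.Agent.P272.K Vale.Agent.P284.H248 Vale.Agent.P284.H894

variable {n : ℕ} {X : Type} [TopologicalSpace X] [ChartedSpace (Cm n) X] {L : LineBundle n X}

omit [ChartedSpace (Cm n) X] in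
/-- A continuous map from a ball lifts to a covering space. -/
theorem exists_lift {Y : Type} [TopologicalSpace Y] {π : Y → X} (hc : IsCoveringMap π)
    (hs : Function.Surjective π) {c : Cm n} {r : ℝ} (hr : 0 < r) {f : Cm n → X}
    (hf : ContinuousOn f (ball c r)) :
    ∃ σ : Cm n → Y, ContinuousOn σ (ball c r) ∧ ∀ z ∈ ball c r, π (σ z) = f z := by
  have hconv : Convex ℝ (ball c r) := convex_ball c r
  have hcb : c ∈ ball c r := mem_ball_self hr
  have : ContractibleSpace (ball c r) := hconv.contractibleSpace ⟨c, hcb⟩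
  have : LocallyPathConnectedSpace (ball c r) := isOpen_ball.locallyPathConnectedSpace
  obtain ⟨y0, hy0⟩ := hs (f c)
  let F : C(ball c r, X) := ⟨fun z => f z, continuousOn_iff_continuous_domRestrict.1 hf⟩
  obtain ⟨g, ⟨-, hg⟩, -⟩ := hc.existsUnique_continuousMap_lifts F ⟨c, hcb⟩ y0 hy0
  classical
  refine ⟨fun z => if h : z ∈ ball c r then g ⟨z, h⟩ else y0, ?_, fun z hz => ?_⟩
  · rw [continuousOn_iff_continuous_domRestrict]
    have : (ball c r).domRestrict (fun z => if h : z ∈ ball c r then g ⟨z, h⟩ else y0) = g := by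
      funext z
      exact dif_pos z.2
    rw [this]
    exact g.continuous
  · simp only [hz, dif_pos]
    exact congrFun hg ⟨z, hz⟩

/-- Two maps which are continuous at a point, have the same value there and the same projection,
agree near the point. -/
theorem lifts_eventuallyEq {A Y Z : Type} [TopologicalSpace A] [TopologicalSpace Y]
    [TopologicalSpace Z] {π : Y → Z} (hc : IsCoveringMap π) {u v : A → Y} {a : A}
    (hu : ContinuousAt u a) (hv : ContinuousAt v a) (h : u a = v a)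
    (hp : ∀ᶠ b in 𝓝 a, π (u b) = π (v b)) : ∀ᶠ b in 𝓝 a, u b = v b := by
  obtain ⟨U, hU, he, hinj⟩ := hc.isLocalHomeomorph.isLocallyInjective (u a)
  filter_upwards [hp, hu (hU.mem_nhds he), hv (hU.mem_nhds (h ▸ he))] with b h1 h2 h3
  exact hinj h2 h3 h1

section
variable {Y Γ : Type} [TopologicalSpace Y] [Group Γ] [MulAction Γ Y] {π : Y → X}
  (hc : IsCoveringMap π) (hcont : ∀ γ : Γ, Continuous fun y : Y => γ • y)
  (hfree : ∀ (γ : Γ) (y : Y), γ • y = y → γ = 1)
  (horb : ∀ y y' : Y, π y = π y' ↔ ∃ γ : Γ, γ • y = y')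
  {P : Pcs L} {σ : P.I → Cm n → Y}
  (hσ : ∀ a, ContinuousOn (σ a) (ball (P.c a) (4 * P.r a)))
  (hπ : ∀ a, ∀ z ∈ ball (P.c a) (4 * P.r a), π (σ a z) = (P.e a).symm z)

omit [TopologicalSpace Y] in
include hfree in
theorem smul_cancel {γ γ' : Γ} {y : Y} (h : γ • y = γ' • y) : γ = γ' := by
  have h1 : (γ'⁻¹ * γ) • y = y := by rw [mul_smul, h, inv_smul_smul]
  have h2 := hfree _ _ h1
  rw [inv_mul_eq_one] at h2
  exact h2.symm

omit [TopologicalSpace Y] in
include horb hπ in
theorem exists_kap {a b : P.I} {z : Cm n} (hz : z ∈ P.O a b) :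
    ∃ γ : Γ, γ • σ b (P.T a b z) = σ a z := by
  refine (horb _ _).1 ?_
  rw [hπ a z hz.1, hπ b _ hz.2.2, P.symm_T hz]

open Classical in
/-- the cocycle -/
def kap (σ : P.I → Cm n → Y) (Γ : Type) [Group Γ] [MulAction Γ Y] (a b : P.I) (z : Cm n) : Γ :=
  if h : ∃ γ : Γ, γ • σ b (P.T a b z) = σ a z then h.choose else 1

omit [TopologicalSpace Y] in
include horb hπ in
theorem kap_spec {a b : P.I} {z : Cm n} (hz : z ∈ P.O a b) :
    kap σ Γ a b z • σ b (P.T a b z) = σ a z := by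
  have h := exists_kap (Γ := Γ) horb hπ hz
  unfold kap
  rw [dif_pos h]
  exact h.choose_spec

omit [TopologicalSpace Y] in
include hfree horb hπ in
theorem kap_eq {a b : P.I} {z : Cm n} (hz : z ∈ P.O a b) {γ : Γ}
    (h : γ • σ b (P.T a b z) = σ a z) : kap σ Γ a b z = γ :=
  smul_cancel hfree ((kap_spec horb hπ hz).trans h.symm)

include hc hcont horb hσ hπ hfree in
theorem kap_loc {a b : P.I} {z : Cm n} (hz : z ∈ P.O a b) :
    ∀ᶠ z' in 𝓝 z, kap σ Γ a b z' = kap σ Γ a b z := by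
  have hO : ∀ᶠ z' in 𝓝 z, z' ∈ P.O a b := (P.isOpen_O a b).mem_nhds hz
  have h1 : ContinuousAt (σ a) z := (hσ a).continuousAt (isOpen_ball.mem_nhds hz.1)
  have hT : ContinuousAt (P.T a b) z := by
    have h2 : ContinuousAt (P.e a).symm z := (P.e a).continuousAt_symm (P.target hz.1)
    have h3 : ContinuousAt (P.e b) ((P.e a).symm z) := (P.e b).continuousAt hz.2.1
    exact ContinuousAt.comp h3 h2
  have h2 : ContinuousAt (fun w => kap σ Γ a b z • σ b (P.T a b w)) z := by
    have h3 : ContinuousAt (σ b) (P.T a b z) := (hσ b).continuousAt (isOpen_ball.mem_nhds hz.2.2)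
    have h4 : ContinuousAt (fun w => σ b (P.T a b w)) z := ContinuousAt.comp h3 hT
    exact ((hcont _).continuousAt).comp h4
  have h3 := lifts_eventuallyEq hc h1 h2 (kap_spec horb hπ hz).symm (by
    filter_upwards [hO] with w hw
    have h5 : π (kap σ Γ a b z • σ b (P.T a b w)) = π (σ b (P.T a b w)) :=
      ((horb _ _).2 ⟨_, rfl⟩).symm
    rw [h5, hπ a w hw.1, hπ b _ hw.2.2, P.symm_T hw])
  filter_upwards [h3, hO] with w hw hwO
  exact kap_eq hfree horb hπ hwO hw.symm

include hcont hc hσ hπ horb in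
/-- the union of the sheets with a property is open -/
theorem isOpen_sheets (Q : Γ → P.I → Prop) :
    IsOpen {y : Y | ∃ γ a, Q γ a ∧ ∃ z ∈ ball (P.c a) (3 * P.r a), γ • σ a z = y} := by
  rw [isOpen_iff_mem_nhds]
  rintro y ⟨γ, a, hQ, z, hz, rfl⟩
  have hsub : ball (P.c a) (3 * P.r a) ⊆ ball (P.c a) (4 * P.r a) :=
    ball_subset_ball (by linarith [P.r_pos a])
  have hz4 := hsub hz
  have hpy : π (γ • σ a z) = (P.e a).symm z := by
    rw [← hπ a z hz4]; exact ((horb _ _).2 ⟨_, rfl⟩).symm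
  have hcπ : ContinuousAt π (γ • σ a z) := hc.continuous.continuousAt
  have hsrc : (P.e a).symm z ∈ (P.e a).source := (P.e a).map_target (P.target hz4)
  have hval : P.e a (π (γ • σ a z)) = z := by
    rw [hpy, (P.e a).right_inv (P.target hz4)]
  have he : ContinuousAt (fun y => P.e a (π y)) (γ • σ a z) := by
    refine ContinuousAt.comp ?_ hcπ
    rw [hpy]
    exact (P.e a).continuousAt hsrc
  have hev1 : ∀ᶠ y in 𝓝 (γ • σ a z), π y ∈ (P.e a).source := by
    refine hcπ.eventually ?_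
    rw [hpy]
    exact (P.e a).open_source.mem_nhds hsrc
  have hev2 : ∀ᶠ y in 𝓝 (γ • σ a z), P.e a (π y) ∈ ball (P.c a) (3 * P.r a) := by
    refine he.eventually ?_
    show ∀ᶠ y in 𝓝 (P.e a (π (γ • σ a z))), y ∈ ball (P.c a) (3 * P.r a)
    rw [hval]
    exact isOpen_ball.mem_nhds hz
  have hu : ContinuousAt (fun y => γ • σ a (P.e a (π y))) (γ • σ a z) := by
    refine (hcont γ).continuousAt.comp ?_
    refine ContinuousAt.comp (f := fun y => P.e a (π y)) ?_ he
    rw [hval]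
    exact (hσ a).continuousAt (isOpen_ball.mem_nhds hz4)
  have h3 := lifts_eventuallyEq hc hu continuousAt_id (by simp only [id, hval]) (by
    filter_upwards [hev1, hev2] with y h1 h2
    have h5 : π (γ • σ a (P.e a (π y))) = π (σ a (P.e a (π y))) :=
      ((horb _ _).2 ⟨_, rfl⟩).symm
    rw [h5, hπ a _ (hsub h2), (P.e a).left_inv h1]
    rfl)
  filter_upwards [h3, hev2] with y h1 h2
  exact ⟨γ, a, hQ, _, h2, h1⟩

include hcont hc hσ hπ horb hfree in
theorem kap_conn [PreconnectedSpace Y] (Q : Γ → P.I → Prop)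
    (hQ : ∀ γ a b z, z ∈ P.O a b → z ∈ ball (P.c a) (3 * P.r a) →
      P.T a b z ∈ ball (P.c b) (3 * P.r b) → Q γ a → Q (γ * kap σ Γ a b z) b) :
    ∀ γ a γ' b, Q γ a → Q γ' b := by
  intro γ a γ' b h1
  by_contra h2
  set S : Set Y := {y : Y | ∃ γ a, Q γ a ∧ ∃ z ∈ ball (P.c a) (3 * P.r a), γ • σ a z = y} with hS
  set S' : Set Y := {y : Y | ∃ γ a, ¬ Q γ a ∧ ∃ z ∈ ball (P.c a) (3 * P.r a), γ • σ a z = y}
    with hS'
  have hSo : IsOpen S := isOpen_sheets hc hcont horb hσ hπ Q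
  have hSo' : IsOpen S' := isOpen_sheets hc hcont horb hσ hπ fun γ a => ¬ Q γ a
  have hsub : ∀ a, ball (P.c a) (3 * P.r a) ⊆ ball (P.c a) (4 * P.r a) := fun a =>
    ball_subset_ball (by linarith [P.r_pos a])
  have hcov : (univ : Set Y) ⊆ S ∪ S' := by
    intro y _
    obtain ⟨a, ha1, ha2⟩ := P.cover (π y)
    have h3 : P.e a (π y) ∈ ball (P.c a) (3 * P.r a) :=
      ball_subset_ball (by linarith [P.r_pos a]) ha2
    have h4 : π (σ a (P.e a (π y))) = π y := by
      rw [hπ a _ (hsub a h3), (P.e a).left_inv ha1]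
    obtain ⟨γ, hγ⟩ := (horb _ _).1 h4
    by_cases hq : Q γ a
    · exact Or.inl ⟨γ, a, hq, _, h3, hγ⟩
    · exact Or.inr ⟨γ, a, hq, _, h3, hγ⟩
  have hne : (univ ∩ S).Nonempty :=
    ⟨γ • σ a (P.c a), mem_univ _, γ, a, h1, _, mem_ball_self (by linarith [P.r_pos a]), rfl⟩
  have hne' : (univ ∩ S').Nonempty :=
    ⟨γ' • σ b (P.c b), mem_univ _, γ', b, h2, _, mem_ball_self (by linarith [P.r_pos b]), rfl⟩
  obtain ⟨y, -, ⟨δ, d, hq, z, hz, hzy⟩, δ', d', hq', w, hw, hwy⟩ :=
    isPreconnected_univ S S' hSo hSo' hcov hne hne'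
  have hz4 := hsub d hz
  have hw4 := hsub d' hw
  have h5 : (P.e d).symm z = (P.e d').symm w := by
    rw [← hπ d z hz4, ← hπ d' w hw4]
    have h6 : π (σ d z) = π y := (horb _ _).2 ⟨_, hzy⟩
    have h7 : π (σ d' w) = π y := (horb _ _).2 ⟨_, hwy⟩
    rw [h6, h7]
  have hT : P.T d d' z = w := by
    show P.e d' ((P.e d).symm z) = w
    rw [h5, (P.e d').right_inv (P.target hw4)]
  have hO : z ∈ P.O d d' := by
    refine ⟨hz4, ?_, ?_⟩
    · rw [h5]; exact (P.e d').map_target (P.target hw4)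
    · rw [hT]; exact hw4
  have h8 := hQ δ d d' z hO hz (by rw [hT]; exact hw) hq
  have h9 : δ * kap σ Γ d d' z = δ' := by
    refine smul_cancel hfree (y := σ d' w) ?_
    rw [mul_smul, ← hT, kap_spec horb hπ hO, hzy, ← hwy, hT]
  rw [h9] at h8
  exact hq' h8

end

/-- **Block A2.** -/
theorem a2Stmt : A2Stmt := by
  intro n X _ _ _ _ _ _ L P x hinf
  obtain ⟨N, hN⟩ := Vale.Agent.P300.H673.exists_openEmbedding (Cm n) X
  obtain ⟨Y, Γ, tY, gΓ, aΓ, π, hsc, ht2, hcont, hfree, hcov, hsurj, horb⟩ :=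
    Vale.Agent.P223.X.U.main N X hN
  have hcont' : ∀ γ : Γ, Continuous fun y : Y => γ • y := hcont
  have q := Vale.Agent.P223.R2.H968.Lift.quot π hcont hfree hcov hsurj horb
  obtain ⟨y0, hy0⟩ := hsurj x
  have E : FundamentalGroup X x ≃* Γᵐᵒᵖ := q.fundamentalGroupEquiv (⟨y0, hy0⟩ : π ⁻¹' {x})
  have hΓ : Infinite Γ := by
    have : Infinite Γᵐᵒᵖ := Infinite.of_injective E E.injective
    exact Infinite.of_injective MulOpposite.unop MulOpposite.unop_injective
  have hlift : ∀ a, ∃ σ : Cm n → Y, ContinuousOn σ (ball (P.c a) (4 * P.r a)) ∧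
      ∀ z ∈ ball (P.c a) (4 * P.r a), π (σ z) = (P.e a).symm z := fun a =>
    exists_lift hcov hsurj (by have := P.r_pos a; positivity)
      ((P.e a).continuousOn_symm.mono fun w hw => P.target hw)
  choose σ hσ hπ using hlift
  refine ⟨Γ, gΓ, hΓ, ⟨{ κ := kap σ Γ, self := ?_, trans := ?_, loc := ?_, conn := ?_ }⟩⟩
  · intro a z hz
    refine kap_eq hfree horb hπ hz ?_
    rw [P.T_self hz.1, one_smul]
  · intro a b d z hz h
    refine kap_eq hfree horb hπ (P.trans_mem hz h) ?_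
    rw [mul_smul, ← P.T_T (d := d) hz, kap_spec horb hπ h, kap_spec horb hπ hz]
  · intro a b z hz
    exact kap_loc hcov hcont hfree horb hσ hπ hz
  · intro Q hQ
    exact kap_conn hcov hcont hfree horb hσ hπ Q hQ

end Vale.Agent.P284.H678
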